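import Vale.Agent.P074.Sharp
import Vale.Agent.P074.Example

/-!
P074: the best stability exponent equals 1/3 and is attained, in every dimension `d ≥ 2`.
-/

open MeasureTheory
open scoped ENNReal NNReal

namespace Vale.Agent.Results.P074.SharpExponent

open Vale.Agent.P074

theorem result :
    ∀ d : ℕ, 2 ≤ d →
      (∀ α : ℝ, 0 < α → (Admissible d α ↔ α ≤ 1 / 3)) ∧
      alphaStar d = 1 / 3 ∧ Admissible d (alphaStar d) ∧ ¬ Admissible d (1 / 2) ∧
      (∀ K Y : Set (Space d), IsCompact K → Convex ℝ K → (interior K).Nonempty → IsCompact Y →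
        ∀ μ : Measure (Space d), IsProbabilityMeasure μ → μ Yᶜ = 0 →
          ∃ T, IsOTMap (uniformOn K) μ T ∧
            ∀ S, IsOTMap (uniformOn K) μ S → S =ᵐ[uniformOn K] T) := by
  intro d hd
  have hiff : ∀ α : ℝ, 0 < α → (Admissible d α ↔ α ≤ 1 / 3) := fun α h0 =>
    ⟨fun h => admissible_le_third hd h, fun h => admissible_third h0 h⟩
  have hstar : alphaStar d = 1 / 3 := by
    refine le_antisymm (csSup_le ⟨1 / 3, ⟨⟨by norm_num, by norm_num⟩, ?_⟩⟩
      fun α hα => admissible_le_third hd hα.2) (le_csSup ⟨1, fun α hα => hα.1.2⟩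
      ⟨⟨by norm_num, by norm_num⟩, ?_⟩)
    · exact admissible_third (by norm_num) le_rfl
    · exact admissible_third (by norm_num) le_rfl
  refine ⟨hiff, hstar, ?_, fun h => absurd ((hiff (1 / 2) (by norm_num)).1 h) (by norm_num), ?_⟩
  · rw [hstar]
    exact admissible_third (by norm_num) le_rfl
  · intro K Y hK _ hint hY μ hμp hμ
    obtain ⟨hprob, hρ, hac⟩ := uniformOn_props hK hint
    have hne : Y.Nonempty := by
      by_contra h
      rw [Set.not_nonempty_iff_eq_empty] at h
      rw [h, Set.compl_empty, measure_univ] at hμ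
      exact one_ne_zero hμ
    obtain ⟨L, hL⟩ := bound_on_compact hK
    obtain ⟨_, G, -, hG, hu⟩ :=
      optimal_maps hK (hint.mono interior_subset) hY hne hρ hμ hac hL
    exact ⟨G, hG, fun S hS => (hu S hS).1⟩

end Vale.Agent.Results.P074.SharpExponent
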